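import Crest.Agent.X212.Eqv71.Cyl

/-!
# Row 212, IX-NATZ (helper72): an equivalence high up is `t`-invariant and extends
-/

set_option autoImplicit false
set_option linter.unusedSectionVars false
noncomputable section
open scoped Manifold ContDiff Topology
open Set Function Filter

namespace Crest.Agent.X212.Ntz72
open An An.Pre Sob92 Cyf70 Nd18

variable {E3 : Type} [NormedAddCommGroup E3] [NormedSpace ℝ E3] [FiniteDimensional ℝ E3]
  [MeasurableSpace E3] [BorelSpace E3]
  {H3 : Type} [TopologicalSpace H3] {I3 : ModelWithCorners ℝ E3 H3} [I3.Boundaryless]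
  {Y : Type} [TopologicalSpace Y] [ChartedSpace H3 Y] [IsManifold I3 ∞ Y] [T2Space Y]
  [MeasurableSpace Y] [BorelSpace Y] [SecondCountableTopology Y] [CompactSpace Y]
  {κ : Type} [Fintype κ] {lam : Type} [Fintype lam] {D : YD I3 Y κ lam} {β β' : YC Y κ lam}
  {sg s l : ℝ} {w : Y × ℝ → CL β.m.V β'.m.V} {ζ : Circle}

theorem ceq_glob (h : D.Adm β) (h' : D.Adm β') (hs : sg = 1 ∨ sg = -1)
    (c : CEq D.Z (cy β) (cy β') {z | s < sg * z.2} (fun z => (z.1, z.2 + l))
      (fun z i j => D.B.P i j z) D.B.l w ζ) :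
    ∃ w₀ : Y → CL β.m.V β'.m.V, (∀ z : Y × ℝ, s < sg * z.2 → w z = w₀ z.1) ∧ Sm I3 w₀ ∧
      CEq D.Z (cy β) (cy β') univ (fun z => (z.1, z.2 + l)) (fun z i j => D.B.P i j z) D.B.l
        (fun z => w₀ z.1) ζ := by
  have o : IsOpen {z : Y × ℝ | s < sg * z.2} := isOpen_lt continuous_const (by fun_prop)
  have t : s < sg * (sg * (s + 1)) := by rcases hs with rfl | rfl <;> linarith
  have a : ∀ z : Y × ℝ, s < sg * z.2 → ContMDiffAt (IC I3) 𝓘(ℝ, CL β.m.V β'.m.V) ∞ w z := fun z hz =>
    c.m.su.contMDiffAt (o.mem_nhds hz)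
  have e : ∀ z : Y × ℝ, s < sg * z.2 → w z = w (z.1, sg * (s + 1)) := fun z hz => by
    refine IsOpen.is_const_of_deriv_eq_zero (𝕜 := ℝ) (s := {t | s < sg * t}) (f := fun t => w (z.1, t))
      (isOpen_lt continuous_const (by fun_prop)) ?_ (fun t ht => ?_) (fun t ht => ?_) hz t
    · exact ((convex_halfSpace_gt (IsLinearMap.mk (mul_add sg) fun _ _ => mul_left_comm _ _ _) s)).isPreconnected
    · exact (contMDiffAt_iff_contDiffAt.1 ((a (z.1, t) ht).comp t
        (contMDiffAt_const.prodMk contMDiffAt_id))).differentiableAt (by simp) |>.differentiableWithinAt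
    · have p := c.W (z.1, t) ht none
      rw [show ∑ b, D.B.P b none (z.1, t) • (cy β').W b (z.1, t + l) = 0 from by
          rw [Fintype.sum_option]; simp [YD.B, cP]; exact h'.tmp _,
        show (cy β).W none (z.1, t) = 0 from h.tmp _, ContinuousLinearMap.zero_comp,
        ContinuousLinearMap.comp_zero, add_zero, sub_zero] at p
      exact (D_none_at D.F.toPre ((a (z.1, t) ht).mdifferentiableAt (by simp))).symm.trans p
  have sm : Sm I3 fun y => w (y, sg * (s + 1)) := fun y =>
    (a (y, _) t).comp y (contMDiffAt_id.prodMk contMDiffAt_const)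
  have P : ∀ i j (x : Y × ℝ), D.B.P i j x = D.B.P i j (x.1, sg * (s + 1)) := fun i j x => by
    cases i <;> cases j <;> rfl
  refine ⟨_, e, sm, ⟨(sm_fst sm).contMDiffOn, fun x _ => c.m.uu (x.1, _) t,
    fun x _ => c.m.uu' (x.1, _) t, fun x _ => c.m.J (x.1, _) t, fun x _ b => ?_,
    fun x _ => c.m.j (x.1, _) t⟩, fun x _ b => ?_, fun x _ => c.Φ (x.1, _) t, c.z⟩
  · simp only [P _ _ x]
    exact c.m.ρ (x.1, _) t b
  · have d : D.Z.D b (fun z => w (z.1, sg * (s + 1))) x = D.Z.D b w (x.1, sg * (s + 1)) := by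
      refine Eq.trans ?_ (dv_congr (eventually_of_mem (o.mem_nhds t) e)).symm
      cases b
      · exact (congrFun (D_none_fst D.F.toPre sm) _).trans (congrFun (D_none_fst D.F.toPre sm) (x.1, sg * (s + 1))).symm
      · exact (congrFun (D_some_fst D.F.toPre sm _) _).trans
          (congrFun (D_some_fst D.F.toPre sm _) (x.1, sg * (s + 1))).symm
    simp only [P _ _ x]
    exact (congrArg (fun a : CL (cy β).m.V (cy β').m.V => a + _ - _) d).trans (c.W (x.1, _) t b)

end Crest.Agent.X212.Ntz72
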