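import Crest.Agent.X212.Ntz72.A
import Crest.Agent.X212.Cht98.TrE
import Crest.Agent.X212.Cht98.TrI
import Crest.Agent.X212.Ixz30.Chz

/-!
# Row 212, IX-NATZ (helper72): the transport intertwines the linearisations
-/

set_option autoImplicit false
set_option linter.unusedSectionVars false
noncomputable section
open scoped Manifold ContDiff Topology
open Set Function Filter

namespace Crest.Agent.X212.Ntz72
open An An.Pre Sob92 M Cyf70 Nd18 Nk89 Map77 Mod61 Cht98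
open Eqv71 (csL)

section gen
variable {E : Type} [NormedAddCommGroup E] [NormedSpace ℝ E] [FiniteDimensional ℝ E]
  [MeasurableSpace E] [BorelSpace E]
  {HM : Type} [TopologicalSpace HM] {I : ModelWithCorners ℝ E HM} [I.Boundaryless]
  {M : Type} [TopologicalSpace M] [ChartedSpace HM M] [IsManifold I ∞ M]
  [MeasurableSpace M] [T2Space M] [BorelSpace M] [SecondCountableTopology M]
  {ι lam : Type} [Fintype ι] [Fintype lam] {T : Type} [NormedAddCommGroup T] [NormedSpace ℝ T]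
  {𝔉 𝔉' : Fam I M ι lam T} {o : Ref 𝔉} {o' : Ref 𝔉'} {r n m k : ℕ}
  {f : o.C r k → o.Y n m k} {f' : o'.C r k → o'.Y n m k} {e e' : T → PtX M ι lam r n m}
  {φ ψ : M → M} {v : M → CL (An.Eu lam) (An.Eu lam)} {w : M → CL o.m.V o'.m.V}
  {ζ : Circle} {y : Pnt o r} {y' : Pnt o' r}

theorem last_gen (h : 𝔉.OK) (h' : 𝔉'.OK) (hk : 4 ≤ k) (hf : RepF e f) (hf' : RepF e' f')
    (g : Eqv71.LG 𝔉.B (𝔉.G y.t) 𝔉'.B (𝔉'.G y'.t) univ φ (fun x b a => 𝔉.B.P b a x) v)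
    (c : CEq (𝔉.G y.t).F y.cfg y'.cfg univ φ (fun x b a => 𝔉.B.P b a x) v w ζ)
    (hO : ∀ x ∈ univ, x ∈ 𝔉.Om ∧ φ x ∈ 𝔉'.Om ∧ (φ x ∈ 𝔉'.Om' ↔ x ∈ 𝔉.Om'))
    (hN : ∀ (Y : Pnt o r) (Y' : Pnt o' r), Y.t = y.t → Y'.t = y'.t →
      CEq (𝔉.G y.t).F Y.cfg Y'.cfg univ φ (fun x b a => 𝔉.B.P b a x) v w ζ → ∀ x ∈ univ,
        (e' y'.t).D Y'.cfg (φ x) = cs o'.m.J ζ (w x ((e y.t).D Y.cfg x)) ∧
        (e' y'.t).C Y'.cfg (φ x) = Eqv71.ridx (Eqv71.sq2 fun b a => 𝔉.B.P b a x) (Eqv71.cj (w x))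
          ((e y.t).C Y.cfg x))
    (cφ : Continuous φ) (sψ : ContMDiff I I ∞ ψ) (x0 : ∀ x, φ (ψ x) = x) (x1 : ∀ x, ψ (φ x) = x)
    {τC : 𝔉.F0.H (k + 1) (bd o).pC →L[ℝ] 𝔉'.F0.H (k + 1) (bd o').pC}
    {τF : 𝔉.F0.H k (ps o.Pg (bd o).pE) →L[ℝ] 𝔉'.F0.H k (ps o'.Pg (bd o').pE)}
    (hC : ∀ u z, 𝔉'.F0.val (k + 1) _ (τC u) (φ z) =
      ΛC (fun i j => 𝔉.B.P i j z) (csL o'.m.J ζ ∘L w z) (𝔉.F0.val (k + 1) _ u z))
    (hF : ∀ u z, 𝔉'.F0.val k _ (τF u) (φ z) =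
      ΛF (fun i j => 𝔉.B.P i j z) (csL o'.m.J ζ ∘L w z) (𝔉.F0.val k _ u z))
    (u : Sec I (bd o).pC)
    (hu : ∀ z, u.1 z = 0 ∨ ∀ b, (Fs 𝔉' y'.t).dv b (φ z) = (Fs 𝔉 y.t).dv b z) :
    TT k f' y' (τC (𝔉.F0.toH _ _ u)) = τF (TT k f y (𝔉.F0.toH _ _ u)) := by
  have k5 : 4 ≤ k + 1 := by omega
  have e : ∀ z, 𝔉'.F0.val (k + 1) _ (τC (𝔉.F0.toH _ _ u)) (φ z) =
      ΛC (fun i j => 𝔉.B.P i j z) (csL o'.m.J ζ ∘L w z) (u.1 z) := fun z =>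
    (hC _ z).trans (congrArg _ (congrFun (val_toH h.sup k5 u) z))
  let G : M ≃ₜ M := ⟨⟨ψ, φ, x0, x1⟩, sψ.continuous, cφ⟩
  have e' : 𝔉'.F0.val (k + 1) _ (τC (𝔉.F0.toH _ _ u)) =
      (fun z => ΛC (fun i j => 𝔉.B.P i j z) (csL o'.m.J ζ ∘L w z) (u.1 z)) ∘ G :=
    funext fun x => (congrArg _ (x0 x).symm).trans (e (ψ x))
  obtain ⟨u', q⟩ : ∃ u' : Sec I (bd o').pC, u'.1 = 𝔉'.F0.val (k + 1) _ (τC (𝔉.F0.toH _ _ u)) := by
    refine ⟨⟨_, ?_, ?_, val_proj h'.sup k5 _⟩, rfl⟩ <;> rw [e']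
    · exact ContMDiff.comp (I' := I) (fun x => (sa_ΛC (fun i j => h.B.sP i j x)
        (contMDiffAt_const.clm_comp (contMDiffOn_univ.1 c.m.su x))).clm_apply (u.2.1 x)) sψ
    · exact (u.2.2.1.mono fun x hx e => hx (by simp only [e, map_zero])).comp_homeomorph G
  rw [← q] at e
  rw [show τC (𝔉.F0.toH _ _ u) = 𝔉'.F0.toH _ _ u' from
    val_injective h'.sup k5 (q.symm.trans (val_toH h'.sup k5 u').symm)]
  refine val_injective h'.sup hk (funext fun x => ?_)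
  obtain ⟨z, rfl⟩ : ∃ z, φ z = x := ⟨_, x0 x⟩
  refine ((tt_nat h h' hk hf hf' g c hO hN u u' (fun x _ => e x) (mem_univ z)).trans ?_).trans
    (hF _ z).symm
  rw [Finset.sum_eq_zero, map_zero, map_zero, add_zero]
  intro b _
  rcases hu z with q | q
  · rw [e, q, map_zero, map_zero]
    exact smul_zero _
  · rw [q, sub_self, zero_smul]

end gen

variable {κ lam : Type} [Fintype κ] [Fintype lam] {Y : Mf 3} [CompactSpace Y.M]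
  {D : YD Y.I Y.M κ lam} {N : ND Y.M lam} {δ sg l : ℝ} {β β' : YC Y.M κ lam}
  {O O' : Set (Y.M × ℝ)} {ζ : Circle} {k : ℕ}

theorem dv_eq (hs : sg = 1 ∨ sg = -1) (t : T0) (b : Option κ) {z : Y.M × ℝ} (h : 1 < sg * z.2) :
    (Fs (famZ T0 D δ O) t).dv b z = cd (fun a y => D.F.dv a y) b (z.1, 0) + b.elim (2 * (δ * sg)) 0 := by
  have s : ContDiff ℝ ∞ fun t => δ * Nk89.ab t := contDiff_const.mul sm_ab
  rw [show Fs (famZ T0 D δ O) t = (famZ T0 D δ O).F0 from Met55.fr_ext (Met55.pre_ext rfl rfl)]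
  cases b
  · refine congrArg (fun a : ℝ => (0 : ℝ) + 2 * a) ((congrFun (D_none_snd D.F.toPre s) z).trans ?_)
    refine (Filter.EventuallyEq.deriv_eq (f := fun t => δ * (sg * t)) (eventually_of_mem
      ((isOpen_lt continuous_const (by fun_prop : Continuous fun t => sg * t)).mem_nhds h)
        fun t ht => congrArg (δ * ·) (ab_eq hs (le_of_lt ht)))).trans ?_
    exact (((hasDerivAt_id z.2).const_mul sg).const_mul δ).deriv.trans (by rw [mul_one])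
  · exact congrArg (fun a : ℝ => D.F.dv _ z.1 + a)
      ((congrArg (2 * ·) (congrFun (D_some_snd D.F.toPre s _) z)).trans (mul_zero _))

theorem nat_e (hD : Eqv71.OKZ D) (hN : N.OK D) {c c' : Cfg (Y.M × ℝ) (Option κ) lam 0}
    {w : Y.M × ℝ → CL c.m.V c'.m.V} (h : Eqv71.Ad0 c D.B D.G) (h' : Eqv71.Ad0 c' D.B D.G)
    (e : CEq D.Z c c' univ (fun z => (z.1, z.2 + l)) (fun x b a => D.B.P b a x) D.B.l w ζ)
    (x : Y.M × ℝ) : (eZ N D).D c' (x.1, x.2 + l) = cs c'.m.J ζ (w x ((eZ N D).D c x)) ∧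
      (eZ N D).C c' (x.1, x.2 + l) = Eqv71.ridx (Eqv71.sq2 fun b a => D.B.P b a x) (Eqv71.cj (w x))
        ((eZ N D).C c x) := by
  have g := (hD.kc_sh l).toLG
  have q := ((hD.q1 hN (r := 0) (n := 0)).tr l)
  have k := Eqv71.cr0_univ h h' e
  refine ⟨(congrArg₂ (· - ·) (Eqv71.ceq_dir g h h' e (mem_univ x)) (q.D k x trivial)).trans ?_,
    (congrArg₂ (· - ·) (congrArg₂ (· - ·) (Eqv71.ceq_p2F g h h' e (mem_univ x))
      (Eqv71.ceq_mu g h h' e (mem_univ x))) (q.C k x trivial)).trans ?_⟩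
  · rw [← Eqv71.csL_apply, ← Eqv71.csL_apply, ← map_sub, ← map_sub]
    rfl
  · rw [← map_sub, ← map_sub]
    rfl

variable {h : D.Adm β} {h' : D.Adm β'} {h0 : ∀ x ∉ O, β.Φ x.1 = 0} {h0' : ∀ x ∉ O', β'.Φ x.1 = 0}
  {w₀ : Y.M → CL β.m.V β'.m.V}

theorem ceq_y (c : CEq D.Z (cy β) (cy β') univ (fun z => (z.1, z.2 + l)) (fun z i j => D.B.P i j z)
    D.B.l (fun z => w₀ z.1) ζ) : CEq D.Z (yZ δ h h0).cfg (yZ δ h' h0').cfg univ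
      (fun z => (z.1, z.2 + l)) (fun z i j => D.B.P i j z) D.B.l (fun z => w₀ z.1) ζ := by
  have k : ∀ W W' Φ Φ', W = (cy β).W → W' = (cy β').W → Φ = (cy β).Φ → Φ' = (cy β').Φ →
      CEq D.Z (⟨(cy β).m, W, Φ, 0⟩ : Cfg _ _ _ 0) ⟨(cy β').m, W', Φ', 0⟩ univ (fun z => (z.1, z.2 + l))
        (fun z i j => D.B.P i j z) D.B.l (fun z => w₀ z.1) ζ := by
    rintro _ _ _ _ rfl rfl rfl rfl
    exact ⟨c.m, c.W, c.Φ, Subsingleton.elim _ _⟩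
  exact k _ _ _ _ (Ixz30.W_refZ h h0 0) (Ixz30.W_refZ h' h0' 0) (add_zero _) (add_zero _)

/-- the last clause of `NatZ` -/
theorem last (hk : 7 ≤ k) (hD : D.OK) (hN : N.OK D) (a : (famZ T0 D δ O).OK)
    (a' : (famZ T0 D δ O').OK) (hO : ∀ z z', z ∈ O ↔ z' ∈ O') (hs : sg = 1 ∨ sg = -1)
    {f : (refZ T0 δ h h0).C 0 k → (refZ T0 δ h h0).Y 0 0 k}
    {f' : (refZ T0 δ h' h0').C 0 k → (refZ T0 δ h' h0').Y 0 0 k}
    (hf : RepF (fun _ => eZ N D) f) (hf' : RepF (fun _ => eZ N D) f')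
    (c : CEq D.Z (cy β) (cy β') univ (fun z => (z.1, z.2 + l)) (fun z i j => D.B.P i j z)
      D.B.l (fun z => w₀ z.1) ζ)
    {τC : (famZ T0 D δ O).F0.H (k + 1) (bd (refZ T0 δ h h0)).pC →L[ℝ]
      (famZ T0 D δ O').F0.H (k + 1) (bd (refZ T0 δ h' h0')).pC}
    {τF : (famZ T0 D δ O).F0.H k (ps (refZ T0 δ h h0).Pg (bd (refZ T0 δ h h0)).pE) →L[ℝ]
      (famZ T0 D δ O').F0.H k (ps (refZ T0 δ h' h0').Pg (bd (refZ T0 δ h' h0')).pE)}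
    (hC : ∀ u z, (famZ T0 D δ O').F0.val (k + 1) _ (τC u) (z.1, z.2 + l) =
      ΛC (fun i j => D.B.P i j z) (csL β'.m.J ζ ∘L w₀ z.1) ((famZ T0 D δ O).F0.val (k + 1) _ u z))
    (hF : ∀ u z, (famZ T0 D δ O').F0.val k _ (τF u) (z.1, z.2 + l) =
      ΛF (fun i j => D.B.P i j z) (csL β'.m.J ζ ∘L w₀ z.1) ((famZ T0 D δ O).F0.val k _ u z))
    (u : Sec (IC Y.I) (bd (refZ T0 δ h h0)).pC)
    (hu : ∀ z, u.1 z = 0 ∨ 1 < sg * z.2 ∧ 1 < sg * (z.2 + l)) :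
    TT k f' (yZ δ h' h0') (τC ((famZ T0 D δ O).F0.toH _ _ u)) =
      τF (TT k f (yZ δ h h0) ((famZ T0 D δ O).F0.toH _ _ u)) := by
  have o := Eqv71.okZ hD Y.dim.le
  exact last_gen (o := refZ T0 δ h h0) (o' := refZ T0 δ h' h0') (φ := fun z => (z.1, z.2 + l))
    (ψ := fun z => (z.1, z.2 - l)) (v := D.B.l) (w := fun z => w₀ z.1) (ζ := ζ) a a' (by omega) hf hf'
    (o.kc_sh l).toLG (ceq_y c) (fun x _ => ⟨trivial, trivial, (hO _ _).symm⟩)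
    (fun y y' _ _ c x _ => nat_e o hN (y.ad0 a) (y'.ad0 a') c x) (by fun_prop)
    (contMDiff_fst.prodMk (contMDiff_snd.sub contMDiff_const)) (fun x => by simp) (fun x => by simp)
    hC hF u fun z => (hu z).imp_right fun q b =>
      (dv_eq hs _ b (z := (z.1, z.2 + l)) q.2).trans (dv_eq hs _ b q.1).symm

variable (κ lam k) in
/-- part (c) of `NatZ` (helper28) -/
def TauS : Prop := ∀ (Y : Mf 3) [CompactSpace Y.M] (D : YD Y.I Y.M κ lam) (δ : ℝ)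
  (β β' : YC Y.M κ lam) (O O' : Set (Y.M × ℝ)) (h : D.Adm β) (h' : D.Adm β')
  (h0 : ∀ x ∉ O, β.Φ x.1 = 0) (h0' : ∀ x ∉ O', β'.Φ x.1 = 0) (l : ℝ) (w₀ : Y.M → CL β.m.V β'.m.V)
  (ζ : Circle), D.OK → (famZ T0 D δ O).OK → (famZ T0 D δ O').OK → (∀ z z', z ∈ O ↔ z' ∈ O') →
  Sm Y.I w₀ → CEq D.Z (cy β) (cy β') univ (fun z => (z.1, z.2 + l)) (fun z i j => D.B.P i j z)
    D.B.l (fun z => w₀ z.1) ζ →
  ∃ (τC : (famZ T0 D δ O).F0.H (k + 1) (bd (refZ T0 δ h h0)).pC →L[ℝ]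
      (famZ T0 D δ O').F0.H (k + 1) (bd (refZ T0 δ h' h0')).pC)
    (τF : (famZ T0 D δ O).F0.H k (ps (refZ T0 δ h h0).Pg (bd (refZ T0 δ h h0)).pE) →L[ℝ]
      (famZ T0 D δ O').F0.H k (ps (refZ T0 δ h' h0').Pg (bd (refZ T0 δ h' h0')).pE)),
    (∀ u z, (famZ T0 D δ O').F0.val (k + 1) _ (τC u) (z.1, z.2 + l) =
      ΛC (fun i j => D.B.P i j z) (csL β'.m.J ζ ∘L w₀ z.1) ((famZ T0 D δ O).F0.val (k + 1) _ u z)) ∧
    ∀ u z, (famZ T0 D δ O').F0.val k _ (τF u) (z.1, z.2 + l) =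
      ΛF (fun i j => D.B.P i j z) (csL β'.m.J ζ ∘L w₀ z.1) ((famZ T0 D δ O).F0.val k _ u z)

/-- **IX-NATZ** from part (c) -/
theorem natZ_of (hk : 7 ≤ k) (H : TauS κ lam k) : NatZ κ lam k :=
  fun X δ β β' O O' h h' h0 h0' _ _ _ _ l _ ζ hX a a' hO hs hf hf' c =>
  (ceq_glob h h' hs c).imp fun w₀ q =>
    (H X.Y X.D δ β β' O O' h h' h0 h0' l w₀ ζ hX.ok a a' hO q.2.1 q.2.2).imp fun _ t =>
      t.imp fun _ t => ⟨q.1, t.1, t.2, last hk hX.ok hX.nd a a' hO hs hf hf' q.2.2 t.1 t.2⟩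

end Crest.Agent.X212.Ntz72

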