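import Crest.Agent.X212.Ntz72.D
import Crest.Agent.X212.Ntz28.C

/-!
# Row 212, IX-NATZ (helper72): assembly
-/

set_option autoImplicit false

namespace Crest.Agent.X212.Ntz72

/-- **IX-NATZ** -/
theorem natZ {κ lam : Type} [Fintype κ] [Fintype lam] {k : ℕ} (hk : 7 ≤ k) : Cht98.NatZ κ lam k :=
  natZ_of hk (Ntz28.tauZ (by omega))

end Crest.Agent.X212.Ntz72
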